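import Vale.Agent.P354CB.Ez

/-!
Countably many local developments contain every local development.
-/

open Set Filter Topology Metric

namespace Vale.Agent.P354CB30

open Vale.Agent.P354n
open Vale.Agent.P354I (X Dat)
open Vale.Agent.P354XJ (inv_co co_mem isOpen_tgt on_nhds co_cont)
open Vale.Agent.P354CB

/-- Near a point every chart has a fixed size. -/
theorem ok_near (K : LK3) {N : Spc} (h : St N) {e : N.Chart} {p : R4} (hp : p ∈ tgt e) :
    ∃ k : ℕ, 1 ≤ k ∧ ∀ᶠ z in 𝓝 p, Ok N e z k := by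
  obtain ⟨Γ, c, g⟩ := K.gam (h.lor e)
  have o := (isOpen_tgt e).mem_nhds hp
  have n : ContinuousAt (fun y => ‖Γ y‖) p :=
    (continuous_norm (E := R4 →L[ℝ] R4 →L[ℝ] R4)).continuousAt.comp (c.continuousOn.continuousAt o)
  obtain ⟨r, r0, hr⟩ := Metric.eventually_nhds_iff.1 ((show ∀ᶠ y in 𝓝 p, y ∈ tgt e from o).and
    (n.eventually (gt_mem_nhds (lt_add_one ‖Γ p‖))))
  obtain ⟨k, hk⟩ := exists_nat_gt (max (4 / r) (‖Γ p‖ + 1))
  have k1 := (le_max_left _ _).trans_lt hk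
  have k2 := (le_max_right _ _).trans_lt hk
  have k3 : (1 : ℝ) ≤ k := by linarith [norm_nonneg (Γ p)]
  have k4 : 2 / (k : ℝ) < r / 2 := by
    rw [div_lt_iff₀ r0] at k1
    rw [div_lt_iff₀ (by linarith)]
    linarith
  refine ⟨k, by exact_mod_cast k3, ?_⟩
  filter_upwards [ball_mem_nhds p (half_pos r0)] with z hz y hy
  obtain ⟨a, b⟩ := hr (show dist y p < r by
    linarith [dist_triangle y z p, mem_ball.1 hz, mem_closedBall.1 hy])
  refine ⟨a, fun y a b => Γ y a b, (g y a _).2 fun _ _ => rfl, fun u v => ?_⟩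
  exact ((Γ y).le_opNorm₂ u v).trans (by gcongr; linarith)

/-- A countable family. -/
theorem cover {d : Dat} (H : ∀ y ≠ 0, ∃ A : LD d, y ∈ A.O) :
    ∃ A : ℕ → LD d, ∀ y ≠ 0, ∃ n, y ∈ (A n).O := by
  obtain ⟨T, c, u⟩ := TopologicalSpace.isOpen_iUnion_countable (fun A : LD d => A.O) fun A => A.h.op
  have m : ∀ y ≠ 0, ∃ A ∈ T, y ∈ A.O := fun y hy => by
    have k : y ∈ ⋃ A : LD d, A.O := mem_iUnion.2 (H y hy)
    rw [← u] at k
    simpa only [mem_iUnion, exists_prop] using k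
  obtain ⟨y, hy⟩ := exists_ne (0 : X)
  obtain ⟨f, rfl⟩ := c.exists_eq_range ((m y hy).imp fun _ h => h.1)
  exact ⟨f, fun y hy => (m y hy).elim fun _ ⟨⟨n, e⟩, k⟩ => ⟨n, e ▸ k⟩⟩

/-- The iterates of σ. -/
def it {α : Type*} (A : ℕ → α) (σ : α → ℕ → α) (n : ℕ) : List ℕ → α
  | [] => A n
  | m :: l => σ (it A σ n l) m

theorem sat (Z : L0) (T : L3) (hS : STEP) (hR : RUN) : SAT := fun d hd H => by
  obtain ⟨A, hA⟩ := cover H
  choose σ hσ using hS d hd
  refine ⟨fun i => it A σ i.1 i.2, fun y hy => (hA y hy).elim fun n k => ⟨(n, []), k⟩,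
    fun B p => ?_⟩
  have c : IsClopen {p : B.N.pt | ∃ (i : ℕ × List ℕ) (x : _), Rel B (it A σ i.1 i.2) p x} := by
    refine ⟨isClosed_of_closure_subset fun p hp => ?_, isOpen_iff_mem_nhds.2 ?_⟩
    · obtain ⟨e, he⟩ := B.N.cover p
      obtain ⟨k, k1, k2⟩ := ok_near Z.k3 B.h.gh.st (co_mem he)
      obtain ⟨δ, δ0, hδ⟩ := hR k (by exact_mod_cast k1)
      obtain ⟨q, ⟨i, hq⟩, q1, q2, q3⟩ := (mem_closure_iff_frequently.1 hp).and_eventually
        ((on_nhds he).and (((co_cont he).eventually k2).and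
          ((co_cont he).eventually (closedBall_mem_nhds _ δ0)))) |>.exists
      obtain ⟨n, hn⟩ := hσ (it A σ i.1 i.2) B e (co e q) k k1 q2 (by rwa [inv_co q1])
      have := hδ d hd B _ e (co e q) (co e p - co e q) q2 hn
        (by rw [← dist_eq_norm, dist_comm]; exact q3)
      rw [add_sub_cancel, inv_co he] at this
      exact ⟨(i.1, n :: i.2), this⟩
    · rintro p ⟨i, -, U, ψ, a, b, -⟩
      exact mem_of_superset (a.hull.op.mem_nhds b) fun q hq => ⟨i, _, U, ψ, a, hq, rfl⟩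
  obtain ⟨_, ⟨y, hy, rfl⟩, C, -, c1, c2, c3⟩ :=
    (Z.l2.g3 _ _ (Z.l2.ac d _ _ _ hd B.h)).con univ Hull.univ p trivial
  obtain ⟨n, hn⟩ := hA y (B.h.nz hy)
  exact c1.subset_isClopen c ⟨_, c3, (n, []), _, T.base d hd B (A n) y hy hn⟩ c2

end Vale.Agent.P354CB30
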